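import Vale.Agent.P352R.H72.Fm
import Vale.Agent.P352R.En.Wit
import Vale.Agent.P352R.En.Pol

/-!
# P352R, block H72: all Wick polynomials over the free field alone (helper72)
-/

set_option autoImplicit false
set_option linter.all false

noncomputable section

namespace Vale.Agent.P352R.H72

open P352 GF P352R.P P352R.G P352R.Le P352R.L22
open P352L.StA (hull sp_of sp_ind)
open UniformSpace (Completion)

theorem ebd {A : (V → V) → D → D} (hA : H15.Rep fr.tq A) : EBd fr.tq := fun B hB => by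
  have k : ∃ k, ∀ f, In Set.univ f → P.Eb A k (B f) := by
    refine sp_ind (p := fun B => ∃ k, ∀ f, In Set.univ f → P.Eb A k (B f)) hB ?_
      ⟨0, fun _ _ => ⟨0, fun v => by simp⟩⟩ ?_
    · rintro B (rfl | ⟨m, n, rfl⟩ | ⟨n, k, π, μ, rfl⟩)
      · exact ⟨1, En.L15.ph_eb rfl hA⟩
      · exact ⟨1, En.tm_eb rfl hA m n⟩
      · exact En.mo_eb rfl hA π μ (sp_of (.inr (.inr ⟨n, k, π, μ, rfl⟩)))
    · rintro B C a ⟨k, p⟩ ⟨l, q⟩
      refine ⟨max k l, fun f hf => ?_⟩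
      obtain ⟨x, -, p⟩ := En.eb_mono hA (p f hf) (le_max_left k l)
      obtain ⟨y, -, q⟩ := En.eb_mono hA (q f hf) (le_max_right k l)
      refine ⟨x + ‖a‖ * y, fun v => (norm_add_le _ _).trans ?_⟩
      rw [norm_smul, add_mul, mul_assoc]
      exact add_le_add (p v) (mul_le_mul_of_nonneg_left (q v) (norm_nonneg _))
  refine k.imp fun k h f hf => ?_
  obtain ⟨C, c, e⟩ := L22.bk hA (h f hf)
  exact ⟨C, fun v => (e v).trans (mul_le_mul_of_nonneg_left (pw_le (Tg.dr hA.der) k v) c)⟩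

/-- **the witness with a proper linearly bounded subtheory** -/
theorem wit : ∃ (E : Type) (_ : NormedAddCommGroup E) (_ : InnerProductSpace ℂ E)
    (Q R : Theory E) (G : E → E) (T : Ix → Ix → Fld E) (A : (V → V) → E → E)
    (Γ : Completion E →L[ℂ] Completion E) (O : Set V) (M : VonNeumannAlgebra (Completion E))
    (φ : Fld E), Stress0 Q T ∧ PCh Q T A ∧ Lg1 Q G A Γ O M ∧ UVac Q ∧ EBd Q ∧ CntF Q ∧ MfA Q ∧
      FSL Q ∧ IsEnl R Q ∧ Gr R G ∧ CntF R ∧ LEB R ∧ (∀ B, R.fld B ↔ B ∈ Submodule.span ℂ {φ}) ∧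
      (∀ S : Submodule ℂ E, Q.vac ∈ S →
        (∀ B f v, Q.fld B → IsTest f → v ∈ S → B f v ∈ S) → S = ⊤) ∧
      Q.IsScalar φ 1 ∧ (∃ f, IsTest f ∧ φ f Q.vac ≠ 0) ∧ ¬FiniteDimensional ℂ (Completion E) ∧
      ∃ f, IsTest f ∧ tr T f Q.vac ≠ 0 := by
  obtain ⟨A, N, ⟨a, b, -, f, n, u, -⟩, -, m, ⟨-, g, d⟩, -, t⟩ := fr.topQ rec_fr
  have r := (Br.lnm.1 n).toRep
  have e := En.W22.enb (A := A) ⟨r.mul, r.add, r.der⟩
  have r' : H15.Rep (hull fr.t0) A := ⟨r.mul, r.add, r.der⟩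
  have g' : Gr (hull fr.t0) id := Br.gr.2 (Gl2.gr r' (fun _ b => b) (zero_mem _))
  have l : LEB (hull fr.t0) := fun B f hB hf => by
    obtain ⟨C, c, e⟩ := L22.bk r' (e.lin B f hB hf)
    refine ⟨C, fun v => (e v).trans (mul_le_mul_of_nonneg_left ?_ c)⟩
    rw [pow_one]
    exact norm_sub_le _ _
  obtain ⟨Γ, -, -, k⟩ := Tg.sub g g' e.sub rfl e.add d (.inl e.cnt) l (ebd r)
  obtain ⟨M, k⟩ := k _ (Metric.ball_mem_nhds 0 one_pos) Metric.isBounded_ball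
  exact ⟨D, _, _, fr.tq, _, id, Tm, A, Γ, _, M, Ph, a, b, k, u, ebd r, cntF_tq, m, f, e.sub, g',
    e.cnt, l, fun _ => Iff.rfl, fun S a b => top_unique fun w _ =>
      fr.gen S a (fun B f v k => b B f v (sp_of k)) w, ⟨sp_of fr.pφ, fr.scalar.2⟩, fr.nzp, t⟩

end Vale.Agent.P352R.H72
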