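import Vale.Agent.P352R.Tg.Top
import Vale.Agent.P352R.En.Ab

/-!
# P352R, block H72: form bounds give energy bounds in graded theories (helper72)
-/

set_option autoImplicit false
set_option linter.all false

noncomputable section

namespace Vale.Agent.P352R.H72

open P352 GF P352R.P P352R.G P352X.EG.Wb P352R.Le P352R.L22

variable {D : Type*} [NormedAddCommGroup D] [InnerProductSpace ℂ D] {Q : Theory D}
  {A : (V → V) → D → D}

theorem en_nn (k : ℕ) (v : D) : 0 ≤ en Q k v := Br.en_eq Q k v ▸ H246.en_nonneg k v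

theorem pw_le (r : Dr Q) (k : ℕ) (v : D) : ‖((1 - dL r) ^ k) v‖ ≤ en Q k v := by
  induction k generalizing v with
  | zero => exact le_rfl
  | succ k ih =>
    rw [ks', map_sub]
    exact (norm_sub_le _ _).trans (add_le_add (ih v) ((ih _).trans (Finset.single_le_sum
      (f := fun m => en Q k (G.Dv Q m v)) (fun _ _ => en_nn _ _) (Finset.mem_univ o))))

/-- **form bounds give operator bounds** -/
theorem form (der : Gnr Q A) (b : ∀ B, Q.fld B → ∃ k, ∀ f, In Set.univ f → ∃ C : ℝ, ∀ u v,
    ‖inner ℂ u (B f v)‖ ≤ C * en Q k u * en Q k v) : EBd Q := fun B hB => by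
  have r := Tg.dr der
  obtain ⟨k, b⟩ := b B hB
  obtain ⟨B', hB', ad⟩ := Q.adj B hB
  have t : ∀ i j, i + j = k → ∀ f, In Set.univ f → ∃ C : ℝ, ∀ u v, ‖inner ℂ u (B f v)‖ ≤
      C * ‖((1 - dL r) ^ j) u‖ * ‖((1 - dL r) ^ (k + i)) v‖ := by
    intro i
    induction i with
    | zero =>
      intro j e f hf
      rw [zero_add] at e
      subst e
      obtain ⟨C, c⟩ := b f hf
      refine ⟨|C| * 5 ^ j * 5 ^ j, fun u v => (c u v).trans ((mul_le_mul (mul_le_mul (le_abs_self C)
        (Tw.en_le' r j u) (en_nn _ _) (abs_nonneg C)) (Tw.en_le' r j v) (en_nn _ _)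
        (by positivity)).trans_eq ?_)⟩
      rw [add_zero]
      ring
    | succ i ih =>
      intro j e f hf
      have hp := P352X.Ap.in_pd o hf
      obtain ⟨C, x⟩ := ih (j + 1) (by omega) f hf
      obtain ⟨C', y⟩ := ih (j + 1) (by omega) _ hp
      exact ⟨_, En.shift (Tg.gnr r) (X := lin (B f) _ fun v w => ad f v w hf.1)
        (Y := lin (B (pd o f)) _ fun v w => ad _ v w hp.1)
        (fun v => (Dv_fld r o hB hf.1 v).trans (by rw [add_comm, ← sub_eq_add_neg]; rfl)) x y⟩
  refine ⟨k + k, fun f hf => ?_⟩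
  obtain ⟨C, x⟩ := t k 0 rfl f hf
  refine ⟨|C|, fun v => le_trans ?_ (mul_le_mul_of_nonneg_left (pw_le r _ v) (abs_nonneg C))⟩
  have := x (B f v) v
  rw [pow_zero, Module.End.one_apply, inner_self_eq_norm_sq_to_K] at this
  simp only [norm_pow, Complex.coe_algebraMap, Complex.norm_real, norm_norm] at this
  rcases (norm_nonneg (B f v)).eq_or_lt with e | e
  · rw [← e]; positivity
  · refine le_of_mul_le_mul_left ?_ e
    nlinarith [mul_le_mul_of_nonneg_right (mul_le_mul_of_nonneg_right (le_abs_self C) e.le)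
      (norm_nonneg (((1 - dL r) ^ (k + k)) v))]

end Vale.Agent.P352R.H72
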