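import Vale.Agent.P352R.H72.Pub
import Vale.Agent.P352R.H72.Wit
import Vale.Agent.P352R.Tg.Gen
import Vale.Agent.P352R.Tg.Wit

/-!
# P352R, block H72: assembly (helper72)
-/

set_option autoImplicit false
set_option linter.all false

namespace Vale.Agent.P352R.GH

open P352.GF P G

theorem thm (D : Type*) [NormedAddCommGroup D] [InnerProductSpace ℂ D] : Thm D :=
  ⟨fun Q G T A Γ O M ⟨a, b, c, n, f, g⟩ =>
    have e := P352R.Lg.net n (c.imp_right And.right)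
    have c : MfA Q ∧ FSL Q := c.elim (fun c =>
      (P352R.Cf.cfg_all Q G A Γ _ (P352R.Br.lng.1 e) c).imp_left P352R.Br.mfa.2) id
    have ⟨h, T, a, b, D, Q, G, e, L, c, d, x, y, z, k⟩ :=
      P352R.Br.finalG Q G T a A b c.1 c.2 Γ _ e f g
    ⟨h, T, a, b, D, Q, G, e, L, c, P352R.Lg.aft n.toGr d, x, y, z, k⟩,
    fun _ _ _ _ _ _ h n b => ⟨P352R.Lg.lg1 h n b, fun _ => P352R.Lg.trf_sub h⟩,
    fun _ => P352R.Le.ebd, fun _ _ => P352R.H72.form, fun _ _ _ _ ⟨g, v, a, d⟩ e s r c l =>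
      have ⟨Γ, N, h, k⟩ := P352R.Tg.sub g r s v a d c l e
      ⟨Γ, N, h, fun O n b => (k O n b).imp fun _ m => ⟨m, fun _ s p c u => ⟨s, p, c, m, u, e⟩⟩⟩,
    fun _ _ g v c m f => (P352R.Tg.gen g c m f).imp fun _ h => ⟨g, v, h.1, h.2⟩⟩

theorem wit : ∀ b, ∃ (D : Type) (_ : NormedAddCommGroup D) (_ : InnerProductSpace ℂ D), Wit D b
  | true =>
    have ⟨D, i, j, Q, G, T, A, Γ, N, l, y, a, b, c, d, e, f, g, h, ⟨φ, p, q⟩, k⟩ := P352R.Tg.wit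
    ⟨D, i, j, Q, Q, G, T, A, Γ, Metric.ball 0 1, N _, φ, ⟨a, b, .inl h,
      P352R.Lg.lg1 e (Metric.ball_mem_nhds _ one_pos) Metric.isBounded_ball, f, g⟩, h, c, d,
      ⟨rfl, rfl, fun _ => id, fun _ => id⟩, e.toGr, h, fun B f p q => l B f p q.1, rfl, y, p, q, k⟩
  | false =>
    have ⟨D, i, j, Q, R, G, T, A, Γ, O, M, φ, a, b, c, d, e, f, k⟩ := P352R.H72.wit
    ⟨D, i, j, Q, R, G, T, A, Γ, O, M, φ, ⟨a, b, .inl f, c, d, e⟩, f, k⟩

end Vale.Agent.P352R.GH
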